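import Mathlib

/-!
P022 (helper874): the one-dimensional integral of the unfolding of the Siegel theta kernel of an
indefinite binary form,
`∫_0^∞ (a t + b / t) exp (-π y (a² t² + b² / t²)) dt / t = (sgn a + sgn b) / 2 · e^(-2π y |ab|) / √y`.
Only Mathlib is used.
-/

open MeasureTheory Set Filter Topology

namespace Vale.Agent.P022.H874

/-- The integrand. -/
noncomputable def gk (y a b t : ℝ) : ℝ :=
  (a * t + b / t) * Real.exp (-Real.pi * y * (a ^ 2 * t ^ 2 + b ^ 2 / t ^ 2)) / t

/-- The primitive of the Gaussian. -/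
noncomputable def K (y u : ℝ) : ℝ := ∫ s in (0 : ℝ)..u, Real.exp (-(Real.pi * y) * s ^ 2)

theorem K_deriv (y u : ℝ) : HasDerivAt (K y) (Real.exp (-(Real.pi * y) * u ^ 2)) u := by
  have hc : Continuous fun s : ℝ => Real.exp (-(Real.pi * y) * s ^ 2) := by fun_prop
  exact intervalIntegral.integral_hasDerivAt_right (hc.intervalIntegrable _ _)
    (hc.stronglyMeasurableAtFilter _ _) hc.continuousAt

theorem K_neg (y u : ℝ) : K y (-u) = -K y u := by
  unfold K
  have h := intervalIntegral.integral_comp_neg (a := (0 : ℝ)) (b := u)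
    (fun s : ℝ => Real.exp (-(Real.pi * y) * s ^ 2))
  simp only [neg_sq, neg_zero] at h
  rw [h, intervalIntegral.integral_symm]

theorem K_top {y : ℝ} (hy : 0 < y) : Tendsto (K y) atTop (𝓝 (1 / (2 * √y))) := by
  have hpy : 0 < Real.pi * y := mul_pos Real.pi_pos hy
  have h := intervalIntegral_tendsto_integral_Ioi (0 : ℝ)
    (integrable_exp_neg_mul_sq hpy).integrableOn tendsto_id
  rw [integral_gaussian_Ioi] at h
  have e : √(Real.pi / (Real.pi * y)) / 2 = 1 / (2 * √y) := by
    rw [div_mul_eq_div_div, div_self Real.pi_ne_zero, Real.sqrt_div zero_le_one, Real.sqrt_one]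
    field_simp
  rw [e] at h
  exact h

theorem K_bot {y : ℝ} (hy : 0 < y) : Tendsto (K y) atBot (𝓝 (-(1 / (2 * √y)))) := by
  have h := ((K_top hy).comp tendsto_neg_atBot_atTop).neg
  refine h.congr fun u => ?_
  simp [K_neg]

/-- The substitution. -/
noncomputable def F (y a b t : ℝ) : ℝ :=
  if t ≤ 0 then -(Real.sign b) * (1 / (2 * √y)) else K y (a * t - b / t)

theorem F_pos {y a b t : ℝ} (ht : 0 < t) : F y a b t = K y (a * t - b / t) := by
  unfold F; rw [if_neg (not_le.2 ht)]

theorem F_deriv (y a b : ℝ) {t : ℝ} (ht : 0 < t) :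
    HasDerivAt (F y a b) (Real.exp (2 * Real.pi * y * (a * b)) * gk y a b t) t := by
  have h1 : HasDerivAt (fun t : ℝ => a * t - b / t) (a + b / t ^ 2) t := by
    have h := ((hasDerivAt_id t).const_mul a).sub ((hasDerivAt_inv ht.ne').const_mul b)
    refine h.congr_deriv ?_ |>.congr_of_eventuallyEq ?_
    · field_simp
      ring
    · exact Eventually.of_forall fun s => by simp [div_eq_mul_inv]
  have h2 := (K_deriv y (a * t - b / t)).comp t h1
  have h3 : (F y a b) =ᶠ[𝓝 t] (K y ∘ fun t : ℝ => a * t - b / t) := by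
    filter_upwards [lt_mem_nhds ht] with s hs
    simp [F_pos hs]
  refine (h2.congr_of_eventuallyEq h3).congr_deriv ?_
  unfold gk
  have e : -(Real.pi * y) * (a * t - b / t) ^ 2 =
      2 * Real.pi * y * (a * b) + -Real.pi * y * (a ^ 2 * t ^ 2 + b ^ 2 / t ^ 2) := by
    field_simp
    ring
  rw [e, Real.exp_add]
  field_simp

theorem tendsto_zero_right {c : ℝ} (a : ℝ) (hc : 0 < c) :
    Tendsto (fun t : ℝ => a * t - c / t) (𝓝[>] 0) atBot := by
  have h1 : Tendsto (fun t : ℝ => c / t) (𝓝[>] 0) atTop := by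
    simpa [div_eq_mul_inv] using tendsto_inv_nhdsGT_zero.const_mul_atTop hc
  have h2 : Tendsto (fun t : ℝ => a * t) (𝓝[>] 0) (𝓝 0) := by
    have : Tendsto (fun t : ℝ => a * t) (𝓝 0) (𝓝 (a * 0)) := (continuous_const.mul continuous_id).tendsto 0
    rw [mul_zero] at this
    exact this.mono_left nhdsWithin_le_nhds
  have := h2.add_atBot (tendsto_neg_atTop_atBot.comp h1)
  refine this.congr fun t => ?_
  simp [sub_eq_add_neg]

theorem tendsto_atTop_r {c : ℝ} (b : ℝ) (hc : 0 < c) :
    Tendsto (fun t : ℝ => c * t - b / t) atTop atTop := by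
  have h1 : Tendsto (fun t : ℝ => b / t) atTop (𝓝 0) := tendsto_const_nhds.div_atTop tendsto_id
  have h2 : Tendsto (fun t : ℝ => c * t) atTop atTop := tendsto_id.const_mul_atTop hc
  have := h2.atTop_add h1.neg
  refine this.congr fun t => ?_
  simp [sub_eq_add_neg]

theorem F_cont {y a b : ℝ} (hy : 0 < y) (hb : b ≠ 0) :
    ContinuousWithinAt (F y a b) (Ici 0) 0 := by
  rw [← continuousWithinAt_Ioi_iff_Ici]
  have h0 : F y a b 0 = -(Real.sign b) * (1 / (2 * √y)) := by simp [F]
  unfold ContinuousWithinAt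
  rw [h0]
  have key : Tendsto (fun t : ℝ => K y (a * t - b / t)) (𝓝[>] 0)
      (𝓝 (-(Real.sign b) * (1 / (2 * √y)))) := by
    rcases lt_or_gt_of_ne hb with h | h
    · rw [Real.sign_of_neg h]
      have := (K_top hy).comp (tendsto_neg_atBot_atTop.comp (tendsto_zero_right (-a) (neg_pos.2 h)))
      refine (this.congr fun t => ?_).trans_eq ?_
      · simp only [Function.comp]
        congr 1
        ring
      · simp
    · rw [Real.sign_of_pos h]
      have := (K_bot hy).comp (tendsto_zero_right a h)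
      refine this.trans_eq ?_
      simp
  refine key.congr' ?_
  filter_upwards [self_mem_nhdsWithin] with t ht
  exact (F_pos ht).symm

theorem F_lim {y a b : ℝ} (hy : 0 < y) (ha : a ≠ 0) :
    Tendsto (F y a b) atTop (𝓝 (Real.sign a * (1 / (2 * √y)))) := by
  have key : Tendsto (fun t : ℝ => K y (a * t - b / t)) atTop
      (𝓝 (Real.sign a * (1 / (2 * √y)))) := by
    rcases lt_or_gt_of_ne ha with h | h
    · rw [Real.sign_of_neg h]
      have := (K_bot hy).comp (tendsto_neg_atTop_atBot.comp (tendsto_atTop_r (-b) (neg_pos.2 h)))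
      refine (this.congr fun t => ?_).trans_eq ?_
      · simp only [Function.comp]
        congr 1
        ring
      · simp
    · rw [Real.sign_of_pos h]
      have := (K_top hy).comp (tendsto_atTop_r b h)
      refine this.trans_eq ?_
      simp
  refine key.congr' ?_
  filter_upwards [eventually_gt_atTop 0] with t ht
  exact (F_pos ht).symm

theorem gk_nonneg {y a b t : ℝ} (ha : 0 < a) (hb : 0 < b) (ht : 0 < t) : 0 ≤ gk y a b t := by
  unfold gk
  positivity

theorem int_pos {y a b : ℝ} (hy : 0 < y) (ha : 0 < a) (hb : 0 < b) :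
    IntegrableOn (gk y a b) (Ioi 0) := by
  have h := integrableOn_Ioi_deriv_of_nonneg (F_cont (a := a) hy hb.ne')
    (fun t ht => F_deriv y a b ht)
    (fun t ht => mul_nonneg (Real.exp_pos _).le (gk_nonneg ha hb ht)) (F_lim hy ha.ne')
  have h2 := h.const_mul (Real.exp (2 * Real.pi * y * (a * b)))⁻¹
  refine h2.congr (Eventually.of_forall fun t => ?_)
  simp only
  rw [← mul_assoc, inv_mul_cancel₀ (Real.exp_pos _).ne', one_mul]

theorem abs_gk_le {y a b t : ℝ} (ht : 0 < t) : |gk y a b t| ≤ gk y |a| |b| t := by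
  unfold gk
  rw [abs_div, abs_mul, abs_of_pos ht, abs_of_pos (Real.exp_pos _), sq_abs, sq_abs]
  gcongr
  calc |a * t + b / t| ≤ |a * t| + |b / t| := abs_add_le _ _
    _ = |a| * t + |b| / t := by rw [abs_mul, abs_div, abs_of_pos ht]

theorem gk_meas (y a b : ℝ) : Measurable (gk y a b) := by
  unfold gk
  fun_prop

/-- Integrability, all signs. -/
theorem gk_integrable {y a b : ℝ} (hy : 0 < y) (ha : a ≠ 0) (hb : b ≠ 0) :
    IntegrableOn (gk y a b) (Ioi 0) := by
  refine (int_pos hy (abs_pos.2 ha) (abs_pos.2 hb)).mono' (gk_meas y a b).aestronglyMeasurable ?_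
  filter_upwards [ae_restrict_mem measurableSet_Ioi] with t ht
  exact abs_gk_le ht

/-- The value, all signs. -/
theorem gk_integral {y a b : ℝ} (hy : 0 < y) (ha : a ≠ 0) (hb : b ≠ 0) :
    ∫ t in Ioi (0 : ℝ), gk y a b t =
      (Real.sign a + Real.sign b) / 2 * Real.exp (-(2 * Real.pi * y * |a * b|)) / √y := by
  have h := integral_Ioi_of_hasDerivAt_of_tendsto (F_cont (a := a) hy hb)
    (fun t ht => F_deriv y a b ht) ((gk_integrable hy ha hb).const_mul _) (F_lim hy ha)
  rw [integral_const_mul] at h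
  have h0 : F y a b 0 = -(Real.sign b) * (1 / (2 * √y)) := by simp [F]
  rw [h0] at h
  have hE := Real.exp_pos (2 * Real.pi * y * (a * b))
  have hs : (0 : ℝ) < √y := Real.sqrt_pos.2 hy
  have h2 : ∫ t in Ioi (0 : ℝ), gk y a b t =
      (Real.exp (2 * Real.pi * y * (a * b)))⁻¹ * ((Real.sign a + Real.sign b) * (1 / (2 * √y))) := by
    rw [eq_comm, inv_mul_eq_iff_eq_mul₀ hE.ne', h]
    ring
  rw [h2, ← Real.exp_neg]
  rcases lt_or_gt_of_ne ha with ha' | ha' <;> rcases lt_or_gt_of_ne hb with hb' | hb'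
  · rw [abs_of_pos (mul_pos_of_neg_of_neg ha' hb')]
    field_simp
  · rw [Real.sign_of_neg ha', Real.sign_of_pos hb']
    simp
  · rw [Real.sign_of_pos ha', Real.sign_of_neg hb']
    simp
  · rw [abs_of_pos (mul_pos ha' hb')]
    field_simp

/-- The absolute bound (for Tonelli). -/
theorem gk_abs {y a b : ℝ} (hy : 0 < y) (ha : a ≠ 0) (hb : b ≠ 0) :
    ∫ t in Ioi (0 : ℝ), |gk y a b t| ≤ Real.exp (-(2 * Real.pi * y * |a * b|)) / √y := by
  have h1 : ∫ t in Ioi (0 : ℝ), |gk y a b t| ≤ ∫ t in Ioi (0 : ℝ), gk y |a| |b| t := by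
    refine setIntegral_mono_on (gk_integrable hy ha hb).abs
      (int_pos hy (abs_pos.2 ha) (abs_pos.2 hb)) measurableSet_Ioi fun t ht => abs_gk_le ht
  refine h1.trans (le_of_eq ?_)
  rw [gk_integral hy (abs_pos.2 ha).ne' (abs_pos.2 hb).ne', Real.sign_of_pos (abs_pos.2 ha),
    Real.sign_of_pos (abs_pos.2 hb), ← abs_mul, abs_abs]
  norm_num

end Vale.Agent.P022.H874
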